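import Vale.Agent.P207.N3.H460.MFX
import Vale.Agent.P207.N3.H156.GeoA

/-!
# P207, line N3, row R16: the metric facts of the frame bundle of the universal cover

`mfA hN m : MF (geoA hN m)`.
-/

open scoped Manifold ContDiff ENNReal Topology unitInterval
open Bundle MeasureTheory Set Filter Topology Metric

noncomputable section

set_option maxSynthPendingDepth 3
set_option linter.unusedSectionVars false

namespace Vale.Agent.P207.N3.H460

open Vale.Agent.P255 (RMetric Npc)
open Vale.Agent.P207 Vale.Agent.P207.Q Vale.Agent.P207.Q.Fl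
open Vale.Agent.P207.N3.H465 Vale.Agent.P207.N3.H566 Vale.Agent.P207.N3.H908
open Vale.Agent.P207.N3.H76 Vale.Agent.P207.N3.H156

/-! ### expansion of the exponential map -/

section Exp

variable {n : ℕ} {M : Type} [TopologicalSpace M] [ChartedSpace (EV n) M]
  [IsManifold 𝓘(ℝ, EV n) ∞ M] {g : RMetric (EV n) M} [Nonempty (Fr g)] [NeZero n]
  [CompactSpace M] [T2Space M] (h : Npc (mt g)) (m : M)

/-- the exponential map expands -/
theorem norm_sub_le_dd (x : XM h m) (u v : EV n) : ‖u - v‖ ≤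
    dd (sys g h) m (Exp ((sys g h).cov m) x u) (Exp ((sys g h).cov m) x v) := by
  have h1 : (sys g h).e m x.q = x.f.pt := PB.e_q x
  have h2 := nrm_lg_sub_le (sys g h) m x.q (Exp ((sys g h).cov m) x v)
    (Exp ((sys g h).cov m) x u)
  rw [H566.Exp_eq, H566.Exp_eq, lg_ex, lg_ex, ← map_sub, h1, nrm_LfE, dd_comm] at h2
  rwa [H566.Exp_eq, H566.Exp_eq]

end Exp

/-! ### rotations -/

section Rot

variable {M : Type} [TopologicalSpace M] [ChartedSpace (EV 3) M]
  [IsManifold 𝓘(ℝ, EV 3) ∞ M] {g : RMetric (EV 3) M} [CompactSpace M] [T2Space M]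

/-- the embedding of the rotated frame -/
theorem frE_rot_sub (A : O3) (f : Fr g) (j : Fin 3) :
    (frE (Fr.rot (mo A) f)).2 j - (frE f).2 j =
      emD (n := 3) f.pt (LfE f (A (EuclideanSpace.single j 1) - EuclideanSpace.single j 1)) := by
  have h1 : (frE (Fr.rot (mo A) f)).2 j = emD (n := 3) f.pt ((Fr.rot (mo A) f).e j) := rfl
  have h2 : (frE f).2 j = emD (n := 3) f.pt (f.e j) := rfl
  have h3 : (Fr.rot (mo A) f).e j = LfE f (A (EuclideanSpace.single j 1)) := by
    rw [LfE_sum]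
    rfl
  have h4 : f.e j = LfE f (EuclideanSpace.single j 1) := by
    rw [LfE_sum]
    simp
  rw [h1, h2, h3, map_sub, map_sub, ← h4]

theorem norm_frE_sub_le (A : O3) (f : Fr g) {c : ℝ} (hc : 0 ≤ c)
    (h : ∀ j, ‖(frE (Fr.rot (mo A) f)).2 j - (frE f).2 j‖ ≤ c) :
    dist (Fr.rot (mo A) f) f ≤ c := by
  rw [dist_fr, Prod.norm_def]
  refine max_le ?_ ?_
  · have h1 : (frE (Fr.rot (mo A) f) - frE f).1 = 0 := by
      rw [Prod.fst_sub]
      exact sub_self _
    rw [h1, norm_zero]
    exact hc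
  · rw [pi_norm_le_iff_of_nonneg hc]
    intro j
    exact h j

theorem norm_le_dist (A : O3) (f : Fr g) (j : Fin 3) :
    ‖(frE (Fr.rot (mo A) f)).2 j - (frE f).2 j‖ ≤ dist (Fr.rot (mo A) f) f := by
  rw [dist_fr]
  exact (norm_le_pi_norm (frE (Fr.rot (mo A) f) - frE f).2 j).trans (norm_snd_le _)

theorem norm_single_sub_le (A : O3) (j : Fin 3) :
    ‖A (EuclideanSpace.single j (1 : ℝ)) - EuclideanSpace.single j 1‖ ≤ ‖op3 A - op3 1‖ := by
  have h := norm_sub_le A (EuclideanSpace.single j (1 : ℝ))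
  rwa [norm_single_one, mul_one] at h

variable [Nonempty (Fr g)] {h : Npc (mt g)} {p : M}

theorem dist_rotE (A : O3) (x : Xt g h p) :
    dist (rotE A x) x = dist (Fr.rot (mo A) x.f) x.f := by
  have h1 : dist (rotE A x) x = max (dd (sys g h) p (rotE A x).q x.q)
    (dist (rotE A x).f x.f) := PB.dist_eq _ _
  rw [h1, q_rotE, dd_self]
  exact max_eq_right dist_nonneg

theorem nm_LfE (h : Npc (mt g)) (f : Fr g) (u : EV 3) : nm g f.pt (LfE f u) = ‖u‖ :=
  nrm_LfE h f u

/-- small rotations move the frames by a small amount -/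
theorem rotE_up : ∃ L : ℝ, ∀ (A : O3) (x : Xt g h p),
    dist (rotE A x) x ≤ L * ‖op3 A - op3 1‖ := by
  obtain ⟨C, hC, H⟩ := exists_nm_bound g
  refine ⟨C, fun A x => ?_⟩
  rw [dist_rotE]
  refine norm_frE_sub_le A x.f (by positivity) fun j => ?_
  rw [frE_rot_sub]
  refine (H _ _).1.trans (mul_le_mul_of_nonneg_left ?_ hC.le)
  exact (le_of_eq (nm_LfE h x.f _)).trans (norm_single_sub_le A j)

/-- rotations which move a frame by a small amount are small -/
theorem rotE_low : ∃ L : ℝ, ∀ (A : O3) (x : Xt g h p),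
    ‖op3 A - op3 1‖ ≤ L * dist (rotE A x) x := by
  obtain ⟨C, hC, H⟩ := exists_nm_bound g
  refine ⟨9 * C, fun A x => ?_⟩
  rw [dist_rotE, mul_assoc]
  refine op3_le (by positivity) fun i j => ?_
  rw [entry_eq, ← Real.norm_eq_abs]
  refine (PiLp.norm_apply_le _ i).trans ?_
  refine (le_of_eq (nm_LfE h x.f _).symm).trans ?_
  refine (H _ _).2.trans (mul_le_mul_of_nonneg_left ?_ hC.le)
  rw [← frE_rot_sub]
  exact norm_le_dist A x.f j

end Rot

variable {M : Type} [TopologicalSpace M] [ChartedSpace (EV 3) M]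
  [IsManifold 𝓘(ℝ, EV 3) ∞ M] {g : RMetric (EV 3) M} [CompactSpace M] [T2Space M]
  [ConnectedSpace M] [Nonempty (Fr g)]

/-- the elementary metric facts -/
theorem mf0A (hN : NegCurvature g) (m : M) : MF0 (geoA hN m) where
  ft_lip := ⟨1, one_pos, 1, fun x y _ => by rw [one_mul]; exact PB.dist_ft_le x y⟩
  act_lip := by
    obtain ⟨C, hC, H⟩ := rotE_lip (g := g) (h := npc_of_neg hN) (p := m)
    exact ⟨1, one_pos, C, fun A x y _ => H A x y⟩
  flow_lip := by
    obtain ⟨C, hC, H⟩ := exists_lift_lip (g := g) ((sys g (npc_of_neg hN)).cov m) (co e0) 1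
    exact ⟨1, one_pos, C, fun t ht x y _ => H t (by rw [abs_of_nonneg ht.1]; exact ht.2) x y⟩
  speed := by
    obtain ⟨C, hC, H⟩ := exists_lift_speed (g := g) ((sys g (npc_of_neg hN)).cov m) (co e0)
    refine ⟨1, one_pos, C, fun t ht x => ?_⟩
    have h1 := H t 0 x
    rw [zero_smul, lift_zero, sub_zero, abs_of_nonneg ht.1] at h1
    exact h1
  act_up := by
    obtain ⟨L, H⟩ := rotE_up (g := g) (h := npc_of_neg hN) (p := m)
    exact ⟨1, one_pos, L, fun A x _ => H A x⟩
  act_low := by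
    obtain ⟨L, H⟩ := rotE_low (g := g) (h := npc_of_neg hN) (p := m)
    exact ⟨1, one_pos, L, fun A x _ => H A x⟩
  exp x u v := norm_sub_le_dd (npc_of_neg hN) m x u v

/-- **The metric facts of the frame bundle of the universal cover** (row R16) -/
theorem mfA (hN : NegCurvature g) (m : M) : MF (geoA hN m) := (mf0A hN m).mf

end Vale.Agent.P207.N3.H460
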